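import Vale.Agent.P004Z.H.Tt
import Vale.Agent.P004M.TE.Deg

/-! # P004Z, block G7: local heights on `y² = x³ + A x + B` -/

set_option autoImplicit false
set_option linter.all false

open Real
open scoped Classical

noncomputable section

namespace Vale.Agent.P004Z.H

open WeierstrassCurve.Affine Vale.Agent.P004H.H666 Vale.Agent.P004M.TE

variable {L : Type} [Field L] {A B : L}

/-- **the local height** (`0` at the origin) -/
def lam (v : AbsoluteValue L ℝ) (P : (crv A B).Point) : ℝ := La v A B (st (xp P) (zp P) 1 0) / 2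

/-- the naive local height `log⁺ |x| / 2` (`0` at the origin) -/
def nh (v : AbsoluteValue L ℝ) (P : (crv A B).Point) : ℝ := log (max (v (xp P)) (v (zp P))) / 2

/-- the factor in the parallelogram law -/
def cc (P Q : (crv A B).Point) : L :=
  FF A B (st (xp P) (zp P) (xp Q) (zp Q))
    (if P + Q = 0 then (if P - Q = 0 then 0 else 1) else if P - Q = 0 then 1 else 2)

variable {v : AbsoluteValue L ℝ}

theorem xz_ne (P : (crv A B).Point) : xp P ≠ 0 ∨ zp P ≠ 0 := by
  rcases P with _ | ⟨x, y, h⟩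
  · exact Or.inl one_ne_zero
  · exact Or.inr one_ne_zero

theorem zp_one {P : (crv A B).Point} (h : P ≠ 0) : zp P = 1 := by
  rcases P with _ | ⟨x, y, h'⟩
  · exact absurd rfl h
  · rfl

theorem nh_zero : nh v (0 : (crv A B).Point) = 0 := by simp [nh]

theorem nh_ne {P : (crv A B).Point} (h : P ≠ 0) : nh v P = log⁺ (v (xp P)) / 2 := by
  rw [nh, zp_one h, map_one, posLog_eq_log_max_one (v.nonneg _), max_comm]

theorem nh_nonneg (P : (crv A B).Point) : 0 ≤ nh v P := by
  by_cases h : P = 0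
  · rw [h, nh_zero]
  · rw [nh_ne h]
    exact div_nonneg posLog_nonneg two_pos.le

theorem lam_neg (P : (crv A B).Point) : lam v (-P) = lam v P := by rw [lam, lam, xp_neg, zp_neg]

theorem cc_gen {P Q : (crv A B).Point} (h : P + Q ≠ 0) (h' : P - Q ≠ 0) :
    cc P Q = (xp P * zp Q - zp P * xp Q) ^ 2 := by
  rw [cc, if_neg h, if_neg h']
  simp [FF, st]
  ring

theorem cc_aff {P Q : (crv A B).Point} (hP : P ≠ 0) (hQ : Q ≠ 0) (h : P + Q ≠ 0) (h' : P - Q ≠ 0) :
    cc P Q = (xp P - xp Q) ^ 2 := by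
  rw [cc_gen h h', zp_one hP, zp_one hQ, mul_one, one_mul]

theorem lam_good (h : Sz v A B 1) (P : (crv A B).Point) : lam v P = nh v P := by
  rw [lam, La_good h, nm_st1, nh]

section map
variable {L' : Type} [Field L'] {A' B' : L'} (f : L →+* L') (ha : f A = A') (hb : f B = B')

theorem lam_map {w : AbsoluteValue L' ℝ} (hf : ∀ a, w (f a) = v a) (P : (crv A B).Point) :
    lam w (pm f ha hb P) = lam v P := by
  subst ha hb
  rw [lam, lam, ← La_map f hf, (xp_pm f rfl rfl P).1, (xp_pm f rfl rfl P).2]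
  congr 2
  ext i
  fin_cases i <;> simp [st]

theorem nh_map {w : AbsoluteValue L' ℝ} (hf : ∀ a, w (f a) = v a) (P : (crv A B).Point) :
    nh w (pm f ha hb P) = nh v P := by
  rw [nh, nh, (xp_pm f ha hb P).1, (xp_pm f ha hb P).2, hf, hf]

theorem cc_map (P Q : (crv A B).Point) : cc (pm f ha hb P) (pm f ha hb Q) = f (cc P Q) := by
  have e : ∀ R, pm f ha hb R = 0 ↔ R = 0 := fun R => map_eq_zero_iff _ (pm_inj f ha hb)
  subst ha hb
  rw [cc, cc, ← map_add, ← map_sub, (xp_pm f rfl rfl P).1, (xp_pm f rfl rfl P).2,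
    (xp_pm f rfl rfl Q).1, (xp_pm f rfl rfl Q).2]
  simp only [e]
  generalize (if P + Q = 0 then (if P - Q = 0 then 0 else 1) else if P - Q = 0 then 1 else 2 :
    Fin 3) = i
  fin_cases i <;> simp [FF, st, map_ofNat]

end map

section
variable (hD : 16 * (4 * A ^ 3 + 27 * B ^ 2) ≠ 0)
include hD

theorem cc_spec (P Q : (crv A B).Point) : cc P Q ≠ 0 ∧ FF A B (st (xp P) (zp P) (xp Q) (zp Q)) =
    cc P Q • st (xp (P + Q)) (zp (P + Q)) (xp (P - Q)) (zp (P - Q)) := by
  obtain ⟨μ, h0, h1, h2, h3⟩ := rl_point (fun e : (2 : L) = 0 => hD (by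
    rw [show (16 : L) = 2 * 8 by norm_num, e, zero_mul, zero_mul])) P Q
  have e : FF A B (st (xp P) (zp P) (xp Q) (zp Q)) =
      μ⁻¹ • st (xp (P + Q)) (zp (P + Q)) (xp (P - Q)) (zp (P - Q)) := by
    rw [eq_inv_smul_iff₀ h0]
    ext i
    fin_cases i <;> simp only [FF, st, h1, h2, h3] <;> simp [-mul_eq_mul_left_iff] <;> ring
  have e2 : cc P Q = μ⁻¹ := by
    rw [cc, e]
    split_ifs with a b b
    · simp [st, a, b]
    · simp [st, a, zp_one b]
    · simp [st, b, zp_one a]
    · simp [st, zp_one a, zp_one b]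
  rw [e2]
  exact ⟨inv_ne_zero h0, e⟩

theorem cc_ne (P Q : (crv A B).Point) : cc P Q ≠ 0 := (cc_spec hD P Q).1

/-- **the parallelogram law** -/
theorem par (P Q : (crv A B).Point) :
    lam v (P + Q) + lam v (P - Q) = 2 * lam v P + 2 * lam v Q - log (v (cc P Q)) / 2 := by
  have h := La_FF (v := v) hD (st (xp P) (zp P) (xp Q) (zp Q))
  rw [(cc_spec hD P Q).2, La_smul hD (cc_ne hD P Q) (st_ne (xz_ne _) (xz_ne _)),
    La_st hD (xz_ne _) (xz_ne _), La_st hD (xz_ne P) (xz_ne Q)] at h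
  simp only [lam]
  linarith

theorem lam_zero : lam v (0 : (crv A B).Point) = 0 := by
  have h := par (v := v) hD (0 : (crv A B).Point) 0
  have e : cc (0 : (crv A B).Point) 0 = 1 := by simp [cc, FF, st]
  rw [add_zero, sub_zero, e, map_one, log_one] at h
  linarith

variable (v) in
/-- **the local height is the naive one up to a bounded error** -/
theorem lam_bd : ∃ C, ∀ P : (crv A B).Point, |lam v P - nh v P| ≤ C := by
  obtain ⟨C, hC⟩ := La_bd v hD
  refine ⟨C / 2, fun P => ?_⟩
  rw [lam, nh, ← sub_div, abs_div, abs_two, ← nm_st1]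
  exact div_le_div_of_nonneg_right (hC _) two_pos.le

/-- **the theorem of the cube** -/
theorem cube (P Q R : (crv A B).Point) :
    lam v (P + Q + R) - lam v (P + Q) - lam v (P + R) - lam v (Q + R) + lam v P + lam v Q +
      lam v R = log (v (cc P (Q - R) * cc Q R ^ 2 / (cc (P + Q) R * cc (P + R) Q))) / 4 := by
  have n := fun P Q : (crv A B).Point => (v.pos (cc_ne hD P Q)).ne'
  have h1 := par (v := v) hD (P + Q) R
  have h2 := par (v := v) hD P (Q - R)
  have h3 := par (v := v) hD (P + R) Q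
  have h4 := par (v := v) hD Q R
  rw [show P + (Q - R) = P + Q - R by abel, show P - (Q - R) = P + R - Q by abel] at h2
  rw [show P + R + Q = P + Q + R by abel] at h3
  rw [map_div₀, map_mul, map_mul, map_pow, log_div (mul_ne_zero (n _ _) (pow_ne_zero _ (n _ _)))
    (mul_ne_zero (n _ _) (n _ _)), log_mul (n _ _) (pow_ne_zero _ (n _ _)), log_mul (n _ _) (n _ _),
    log_pow]
  push_cast
  linarith

end

/-- good reduction -/
theorem sz_one (hv : IsNonarchimedean v) (hA : v A ≤ 1) (hB : v B ≤ 1)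
    (hD : v (16 * (4 * A ^ 3 + 27 * B ^ 2)) = 1) : Sz v A B 1 :=
  ⟨fun a b => by simpa using hv a b, hA, hB, by rw [map_inv₀, hD, inv_one],
    v.pos_iff.1 (hD ▸ one_pos)⟩

end Vale.Agent.P004Z.H
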