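import Vale.Agent.P004Z.H.Av
import Vale.Agent.P004Z.H.Loc
import Vale.Agent.P027H.Aut

/-! # P004Z, block G7: the canonical height -/

set_option autoImplicit false
set_option linter.all false

open Real
open scoped Classical IntermediateField

noncomputable section

namespace Vale.Agent.P004Z.H

open WeierstrassCurve.Affine Vale.Agent.P004H.H666 Vale.Agent.P004M.TE

theorem ex_bil {G : Type*} [AddCommGroup G] (D : G → ℝ)
    (h : ∀ x y, D (x + y) + D (x - y) = 2 * D x + 2 * D y) :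
    ∃ β : G →+ G →+ ℝ, (∀ x y, β x y = D (x + y) - D x - D y) ∧ ∀ x, β x x = 2 * D x := by
  have h0 : D 0 = 0 := by have := h 0 0; simp only [add_zero, sub_zero] at this; linarith
  have hn : ∀ x, D (-x) = D x := fun x => by
    have := h 0 x; simp only [zero_add, zero_sub] at this; linarith
  have ha : ∀ x x' y, D (x + x' + y) - D (x + x') - D y =
      D (x + y) - D x - D y + (D (x' + y) - D x' - D y) := by
    intro x x' y
    have e1 := h (x + y) x'
    have e2 := h (x - y) x'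
    have e3 := h (x' + y) x
    have e4 := h (x' - y) x
    have e5 := h (x + x') y
    have e6 := h x y
    have e7 := h x' y
    rw [show x + y + x' = x + x' + y by abel] at e1
    rw [show x - y + x' = x + x' - y by abel] at e2
    rw [show x' + y + x = x + x' + y by abel, show x' + y - x = -(x - y - x') by abel, hn] at e3
    rw [show x' - y + x = x + x' - y by abel, show x' - y - x = -(x + y - x') by abel, hn] at e4
    linarith
  refine ⟨AddMonoidHom.mk' (fun x => AddMonoidHom.mk' (fun y => D (x + y) - D x - D y)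
    fun y y' => ?_) fun x x' => AddMonoidHom.ext fun y => ha x x' y, fun _ _ => rfl, fun x => ?_⟩
  · have := ha y y' x
    rw [add_comm (y + y'), add_comm y x, add_comm y' x] at this
    linarith
  · have := h x x
    rw [sub_self] at this
    change D (x + x) - D x - D x = _
    linarith

theorem nh_eq {L : Type} [Field L] {A B : L} (v : AbsoluteValue L ℝ) (P : (crv A B).Point) :
    nh v P = log⁺ (v (xp P)) / 2 := by
  by_cases h : P = 0
  · simp [h, nh_zero]
  · exact nh_ne h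

theorem fin_xp {L : Type} [Field L] {A B : L} {S : Set L} (h : S.Finite) :
    {P : (crv A B).Point | xp P ∈ S}.Finite := by
  refine (h.biUnion (t := fun x => {P : (crv A B).Point | xp P = x}) fun x _ => ?_).subset
    fun P hP => Set.mem_biUnion hP rfl
  by_cases e : ∃ Q : (crv A B).Point, Q ≠ 0 ∧ xp Q = x
  · obtain ⟨Q, q0, rfl⟩ := e
    refine (Set.toFinite {0, Q, -Q}).subset fun P hP => ?_
    by_cases p0 : P = 0
    · exact Or.inl p0
    · exact Or.inr (xp_eq p0 q0 hP)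
  · exact (Set.finite_singleton 0).subset fun P hP => by_contra fun p0 => e ⟨P, p0, hP⟩

section Q

variable {a b : ℚ} {v : ℕ → AbsoluteValue Qb ℝ}

/-- the local heights of the conjugates -/
def lf (v : ℕ → AbsoluteValue Qb ℝ) (P : (Cv Qb a b).Point) : GQ → ℕ → ℝ :=
  fun σ p => lam (v p) (ga σ P)

/-- the canonical height -/
def hh (v : ℕ → AbsoluteValue Qb ℝ) (P : (Cv Qb a b).Point) : ℝ := mn (lf v P)

theorem deg_le (P : (Cv Qb a b).Point) : ∃ d, ∀ k : ℕ, (minpoly ℚ (xp (k • P))).natDegree ≤ d := by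
  have i := fun x : Qb => ((AlgebraicClosure.isAlgebraic ℚ).1 x).isIntegral
  obtain ⟨K, f, hK⟩ : ∃ K : IntermediateField ℚ Qb, FiniteDimensional ℚ K ∧ In K.toSubfield 1 P := by
    rcases P with _ | ⟨x, y, h⟩
    · exact ⟨⊥, inferInstance, trivial⟩
    · exact ⟨ℚ⟮x, y⟯, IntermediateField.finiteDimensional_adjoin fun z _ => i z,
        IntermediateField.subset_adjoin _ _ (by simp), by
          rw [div_one]; exact IntermediateField.subset_adjoin _ _ (by simp)⟩
  refine ⟨Module.finrank ℚ K, fun k => ?_⟩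
  have h1 : In K.toSubfield 1 (k • P) := by
    induction k with
    | zero => rw [zero_nsmul]; trivial
    | succ k ih =>
      rw [succ_nsmul]
      exact ih.add one_ne_zero (by simp) (K.algebraMap_mem a) hK
  have h2 : xp (k • P) ∈ K := by
    generalize k • P = Q at h1
    rcases Q with _ | ⟨x, y, h⟩
    exacts [K.one_mem, h1.1]
  exact (congrArg _ (IntermediateField.minpoly_eq (⟨_, h2⟩ : K))).ge.trans (minpoly.natDegree_le _)

variable (h : Pl v) (hD : 16 * (4 * algebraMap ℚ Qb a ^ 3 + 27 * algebraMap ℚ Qb b ^ 2) ≠ 0)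
include h hD

theorem fin_bad :
    {p : Nat.Primes | ¬ Sz (v p) (algebraMap ℚ Qb a) (algebraMap ℚ Qb b) 1}.Finite :=
  (((h.ev_le _).union (h.ev_le _)).union (h.ev_le _)).subset fun p hp => by_contra fun e => by
    simp only [Set.mem_union, Set.mem_ofPred_eq, not_or, not_not] at e
    exact hp ⟨fun a b => by simpa using h.na p p.2 a b, e.1.1, e.1.2, e.2, hD⟩

theorem fs_lam (P : (Cv Qb a b).Point) : Fs fun p => lam (v p) P :=
  ((fin_bad h hD).union (h.fs_pos (xp P))).subset fun p hp => by_contra fun e => by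
    simp only [Set.mem_union, Set.mem_ofPred_eq, not_or, not_not, Function.mem_support] at e
    exact hp ((lam_good e.1 P).trans (by rw [nh_eq, e.2, zero_div]))

theorem ad_lf (P : (Cv Qb a b).Point) : lf v P ∈ Ad :=
  ad_of (fun _ => fs_lam h hD _) fun σ => (ev_ga σ P).mono fun τ e => funext fun p => congrArg _ e

theorem hh_par (P Q : (Cv Qb a b).Point) :
    hh v (P + Q) + hh v (P - Q) = 2 * hh v P + 2 * hh v Q := by
  have e : lf v (P + Q) + lf v (P - Q) = (2 : ℝ) • lf v P + (2 : ℝ) • lf v Q +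
      (-1 / 2 : ℝ) • fun σ p => log (v p (σ (cc P Q))) := by
    ext σ p
    have := par (v := v p) hD (ga σ P) (ga σ Q)
    rw [show cc (ga σ P) (ga σ Q) = σ (cc P Q) from
      cc_map (σ : Qb →+* Qb) (σ.commutes a) (σ.commutes b) P Q] at this
    simp only [lf, Pi.add_apply, Pi.smul_apply, smul_eq_mul, map_add, map_sub]
    linarith
  have a := ad_lf h hD
  rw [hh, hh, ← mn_add (a _) (a _), e, mn_add (add_mem (Ad.smul_mem _ (a _)) (Ad.smul_mem _ (a _)))
    (Ad.smul_mem _ (h.ad_log _)), mn_add (Ad.smul_mem _ (a _)) (Ad.smul_mem _ (a _)),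
    mn_smul (a _), mn_smul (a _), mn_smul (h.ad_log _), h.prod, mul_zero, add_zero, hh, hh]

theorem hx_le : ∃ C, ∀ P : (Cv Qb a b).Point, hx v (xp P) ≤ 2 * hh v P + C := by
  choose C hC using fun p => lam_bd (v p) hD
  let f : ℕ → ℝ := fun p =>
    if Sz (v p) (algebraMap ℚ Qb a) (algebraMap ℚ Qb b) 1 then 0 else 2 * C p
  have hf : Fs f := (fin_bad h hD).subset fun p hp e => hp (if_pos e)
  refine ⟨tt f, fun P => ?_⟩
  have k : ∀ (σ : GQ) p, log⁺ (v p (σ (xp P))) ≤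
      ((2 : ℝ) • lf v P + fun _ => f : GQ → ℕ → ℝ) σ p := fun σ p => by
    have h1 := abs_le.1 (hC p (ga σ P))
    have h2 := nh_eq (v p) (ga σ P)
    rw [xp_ga] at h2
    simp only [lf, f, Pi.add_apply, Pi.smul_apply, smul_eq_mul]
    split_ifs with e
    · rw [lam_good e]; linarith
    · linarith [h1.1]
  rw [hh, ← mn_smul (ad_lf h hD P), ← mn_const, ← mn_add (Ad.smul_mem _ (ad_lf h hD P)) (ad_const hf)]
  exact mn_mono (h.ad_pos _) (add_mem (Ad.smul_mem _ (ad_lf h hD P)) (ad_const hf))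
    (fun σ => k σ 0) fun σ p _ => k σ p

theorem hh_tors {P : (Cv Qb a b).Point} (e : hh v P = 0) : ∃ k : ℕ, 0 < k ∧ k • P = 0 := by
  obtain ⟨β, -, h2⟩ := ex_bil _ (hh_par h hD)
  obtain ⟨C, hC⟩ := hx_le h hD
  obtain ⟨d, hd⟩ := deg_le P
  have f := fin_xp (A := algebraMap ℚ Qb a) (B := algebraMap ℚ Qb b) (h.north C d)
  rw [← isOfFinAddOrder_iff_nsmul_eq_zero, ← finite_multiples]
  refine f.subset ?_
  rintro _ ⟨k, rfl⟩
  have h3 := h2 (k • P)
  rw [map_nsmul, map_nsmul, AddMonoidHom.nsmul_apply, h2, e] at h3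
  have h4 := hC (k • P)
  refine ⟨hd k, ?_⟩
  simp only [mul_zero, smul_zero] at h3
  change hx v (xp (k • P)) ≤ C
  linarith

end Q

/-! ## over the complex numbers -/

/-- an embedding -/
def io : Qb →ₐ[ℚ] ℂ :=
  haveI : Algebra.IsAlgebraic ℚ Qb := AlgebraicClosure.isAlgebraic ℚ
  IsAlgClosed.lift

theorem alg_of_fin {z : ℂ} (h : (Set.range fun σ : ℂ ≃+* ℂ => σ z).Finite) : IsAlgebraic ℚ z := by
  by_contra hz
  have : Countable (Polynomial ℚ) := by
    rw [← Cardinal.mk_le_aleph0_iff]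
    exact Polynomial.cardinalMk_le_max.trans (max_le Cardinal.mk_le_aleph0 le_rfl)
  have k : ∀ n : ℕ, Transcendental ℚ (z + n) := fun n e => hz (by
    simpa using e.sub (isAlgebraic_natCast n))
  refine Set.infinite_of_injective_forall_mem (f := fun n : ℕ => z + n)
    (fun m n e => by simpa using e) (fun n => ?_) h
  obtain ⟨φ, e⟩ := P027H.ext_ker (Polynomial ℚ) (Polynomial.aeval z : _ →ₐ[ℚ] ℂ)
    (Polynomial.aeval (z + n) : _ →ₐ[ℚ] ℂ) fun a =>
      (map_eq_zero_iff _ (transcendental_iff_injective.1 hz)).trans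
        (map_eq_zero_iff _ (transcendental_iff_injective.1 (k n))).symm
  exact ⟨φ, by simpa using e Polynomial.X⟩

theorem ex_io {z : ℂ} (h : IsAlgebraic ℚ z) : ∃ x, io x = z := by
  have e := minpoly.aeval ℚ z
  have s := IsAlgClosed.splits ((minpoly ℚ z).map (algebraMap ℚ Qb))
  have n : (minpoly ℚ z).map (algebraMap ℚ Qb) ≠ 0 :=
    Polynomial.map_ne_zero (minpoly.ne_zero h.isIntegral)
  refine s.mem_range_of_isRoot (i := (io : Qb →+* ℂ)) n ?_
  rwa [Polynomial.map_map, Polynomial.IsRoot, Polynomial.eval_map, AlgHom.comp_algebraMap]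

theorem alg_io (x : Qb) : IsAlgebraic ℚ (io x) := ((AlgebraicClosure.isAlgebraic ℚ).1 x).algHom io

theorem ex_ext (g : GQ) : ∃ σ : ℂ ≃+* ℂ, ∀ x, σ (io x) = io (g x) := by
  have : Algebra.IsAlgebraic ℚ Qb := AlgebraicClosure.isAlgebraic ℚ
  have : Countable Qb := by
    rw [← Cardinal.mk_le_aleph0_iff]
    exact (Algebra.IsAlgebraic.cardinalMk_le_max ℚ Qb).trans (max_le Cardinal.mk_le_aleph0 le_rfl)
  exact P027H.ext_ker Qb (io : Qb →+* ℂ) ((io : Qb →+* ℂ).comp (g : Qb →+* Qb)) fun a => by simp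

theorem ex_res (σ : ℂ ≃+* ℂ) : ∃ g : GQ, ∀ x, σ (io x) = io (g x) := by
  letI : Algebra Qb ℂ := (io : Qb →+* ℂ).toAlgebra
  haveI : IsScalarTower ℚ Qb ℂ := .of_algebraMap_eq fun x => (io.commutes x).symm
  haveI := gal
  exact ⟨(σ : ℂ →+* ℂ).toRatAlgHom.restrictNormal' Qb, fun x =>
    ((σ : ℂ →+* ℂ).toRatAlgHom.restrictNormal_commutes Qb x).symm⟩

/-- complex conjugation -/
abbrev cj : ℂ ≃+* ℂ := starRingAut

section C

variable {A B : ℤ}

/-- the complex points -/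
abbrev EC (A B : ℤ) : Type := (crv (A : ℂ) (B : ℂ)).Point

/-- the action of the automorphisms -/
def sp (σ : ℂ ≃+* ℂ) : EC A B →+ EC A B := pm (σ : ℂ →+* ℂ) (map_intCast _ A) (map_intCast _ B)

theorem sp_some (σ : ℂ ≃+* ℂ) {x y : ℂ} (h : (crv (A : ℂ) (B : ℂ)).Nonsingular x y) :
    ∃ h', sp σ (.some x y h) = .some (σ x) (σ y) h' := ⟨_, pm_some _ _ _ h⟩

theorem sp_trans (σ τ : ℂ ≃+* ℂ) (P : EC A B) : sp (σ.trans τ) P = sp τ (sp σ P) := by
  rcases P with _ | ⟨x, y, h⟩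
  · change sp _ 0 = sp _ (sp _ 0)
    simp
  · simp only [sp, pm_some]; rfl

theorem sp_refl (P : EC A B) : sp (RingEquiv.refl ℂ) P = P := by
  rcases P with _ | ⟨x, y, h⟩
  · exact map_zero _
  · simp only [sp, pm_some]; rfl

theorem sp_inj (σ : ℂ ≃+* ℂ) : Function.Injective (sp (A := A) (B := B) σ) := pm_inj _ _ _

theorem xp_sp (σ : ℂ ≃+* ℂ) (P : EC A B) : xp (sp σ P) = σ (xp P) := (xp_pm _ _ _ P).1

theorem lam_sp (V : AbsoluteValue ℂ ℝ) (σ : ℂ ≃+* ℂ) (P : EC A B) :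
    lam V (sp σ P) = lam (V.comp (f := (σ : ℂ →+* ℂ)) σ.injective) P := lam_map _ _ _ (fun _ => rfl) P

/-- the algebraic points -/
def iE : (Cv Qb (A : ℚ) (B : ℚ)).Point →+ EC A B := pm (io : Qb →+* ℂ) (by simp) (by simp)

theorem sp_iE {σ : ℂ ≃+* ℂ} {g : GQ} (e : ∀ x, σ (io x) = io (g x))
    (P : (Cv Qb (A : ℚ) (B : ℚ)).Point) : sp σ (iE P) = iE (ga g P) := by
  rcases P with _ | ⟨x, y, h⟩
  · change sp _ (iE 0) = iE (ga g 0)
    simp
  · simp only [sp, iE, ga_some, pm_some]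
    congr 1
    exacts [e x, e y]

variable (A B) in
/-- points with a finite orbit -/
def Fo : AddSubgroup (EC A B) where
  carrier := {P | (Set.range fun σ => sp σ P).Finite}
  zero_mem' := (Set.finite_singleton 0).subset (by rintro _ ⟨σ, rfl⟩; exact map_zero _)
  add_mem' {P Q} h h' := (Set.Finite.image2 (· + ·) h h').subset (by
    rintro _ ⟨σ, rfl⟩
    exact ⟨_, ⟨σ, rfl⟩, _, ⟨σ, rfl⟩, (map_add _ _ _).symm⟩)
  neg_mem' {P} h := (Set.Finite.image (- ·) h).subset (by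
    rintro _ ⟨σ, rfl⟩
    exact ⟨_, ⟨σ, rfl⟩, (map_neg _ _).symm⟩)

theorem mem_Fo {P : EC A B} : P ∈ Fo A B ↔ (Set.range fun σ => sp σ P).Finite := Iff.rfl

theorem Fo.ex {P : EC A B} (h : P ∈ Fo A B) : ∃ Q, iE Q = P := by
  rcases P with _ | ⟨x, y, h'⟩
  · exact ⟨0, map_zero _⟩
  · let yp : EC A B → ℂ := fun P => match P with
      | .zero => 0
      | .some _ y _ => y
    obtain ⟨x, rfl⟩ := ex_io (z := x) (alg_of_fin ((Set.Finite.image xp h).subset (by
      rintro _ ⟨σ, rfl⟩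
      exact ⟨_, ⟨σ, rfl⟩, xp_sp σ _⟩)))
    obtain ⟨y, rfl⟩ := ex_io (z := y) (alg_of_fin ((Set.Finite.image yp h).subset (by
      rintro _ ⟨σ, rfl⟩
      exact ⟨_, ⟨σ, rfl⟩, by simp only [sp, pm_some]; rfl⟩)))
    refine ⟨.some x y ?_, pm_some _ _ _ _⟩
    have e := crv_map (A := algebraMap ℚ Qb A) (B := algebraMap ℚ Qb B) (A' := (A : ℂ))
      (B' := (B : ℂ)) (io : Qb →+* ℂ) (by simp) (by simp)
    rw [← e] at h'
    exact (map_nonsingular _ (io : Qb →+* ℂ).injective x y).1 h'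

theorem Fo.alg {P : EC A B} (h : P ∈ Fo A B) : IsAlgebraic ℚ (xp P) := by
  obtain ⟨Q, rfl⟩ := Fo.ex h
  rw [iE, (xp_pm _ _ _ Q).1]
  exact alg_io _

theorem Fo.sp {P : EC A B} (h : P ∈ Fo A B) (σ : ℂ ≃+* ℂ) : sp σ P ∈ Fo A B :=
  Set.Finite.subset h (by
    rintro _ ⟨τ, rfl⟩
    exact ⟨σ.trans τ, sp_trans σ τ P⟩)

/-- one place over every prime -/
structure PlC (V : ℕ → AbsoluteValue ℂ ℝ) : Prop where
  inf : ∀ z, V 0 z = ‖z‖
  na : ∀ p, p.Prime → IsNonarchimedean (V p)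
  self : ∀ p, p.Prime → V p p = (p : ℝ)⁻¹

/-- the local symbols -/
def GG (V : ℕ → AbsoluteValue ℂ ℝ) {ι : Type} (s : Finset ι) (n : ι → ℤ) (R : ι → EC A B)
    (T Q : EC A B) (α : ℂ) (σ : ℂ ≃+* ℂ) (p : ℕ) : ℝ :=
  ∑ i ∈ s, n i * (lam (V p) (sp σ (R i - (T + Q))) - lam (V p) (sp σ (R i - T))) - log (V p (σ α))

/-- **the sum of the local symbols is the height pairing** -/
theorem glob {V : ℕ → AbsoluteValue ℂ ℝ} (h : PlC V) (hD : 4 * A ^ 3 + 27 * B ^ 2 ≠ 0) {ι : Type}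
    (s : Finset ι) (n : ι → ℤ) (R : ι → EC A B) (hR : ∀ i ∈ s, R i ∈ Fo A B)
    (h0 : ∑ i ∈ s, n i = 0) : ∃ l : EC A B →+ ℝ,
    (l (∑ i ∈ s, n i • R i) = 0 → ∃ k : ℕ, 0 < k ∧ k • ∑ i ∈ s, n i • R i = 0) ∧
    ∀ T ∈ Fo A B, ∀ Q ∈ Fo A B, ∀ α, IsAlgebraic ℚ α → ∀ t,
      (∀ σ, tt (GG V s n R T Q α σ) + tt (GG V s n R T Q α (cj.trans σ)) = t) → t = -2 * l Q := by
  let v : ℕ → AbsoluteValue Qb ℝ := fun p => (V p).comp (io : Qb →+* ℂ).injective
  have hv : ∀ p x, v p x = V p (io x) := fun _ _ => rfl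
  have pl : Pl v := ⟨fun n => by simp [hv, h.inf], fun p hp a b => by
    simpa only [hv, map_add] using h.na p hp _ _, fun p hp => by simp [hv, h.self p hp]⟩
  have hD' : 16 * (4 * algebraMap ℚ Qb A ^ 3 + 27 * algebraMap ℚ Qb B ^ 2) ≠ 0 := by
    simp only [map_intCast]
    exact_mod_cast mul_ne_zero (by norm_num) hD
  obtain ⟨β, h1, h2⟩ := ex_bil _ (hh_par pl hD')
  choose! R' hR' using fun i hi => Fo.ex (hR i hi)
  have e0 : iE (∑ i ∈ s, n i • R' i) = ∑ i ∈ s, n i • R i := by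
    rw [map_sum]
    exact Finset.sum_congr rfl fun i hi => by rw [map_zsmul, hR' i hi]
  obtain ⟨l, hl⟩ := (Module.Baer.of_divisible ℝ).extension_property_addMonoidHom
    (iE (A := A) (B := B)) (pm_inj _ _ _) (β (∑ i ∈ s, n i • R' i))
  have hl' := fun P => DFunLike.congr_fun hl P
  simp only [AddMonoidHom.comp_apply] at hl'
  refine ⟨l, fun e => ?_, fun T hT Q hQ α hα t e => ?_⟩
  · rw [← e0, hl', h2] at e
    obtain ⟨k, k0, hk⟩ := hh_tors pl hD' (P := ∑ i ∈ s, n i • R' i) (by linarith)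
    exact ⟨k, k0, by rw [← e0, ← map_nsmul, hk, map_zero]⟩
  obtain ⟨T, rfl⟩ := Fo.ex hT
  obtain ⟨Q, rfl⟩ := Fo.ex hQ
  obtain ⟨α, rfl⟩ := ex_io hα
  obtain ⟨c, hc⟩ := ex_res cj
  let F : GQ → ℕ → ℝ := ∑ i ∈ s, (n i : ℝ) • (lf v (R' i - (T + Q)) + (-1 : ℝ) • lf v (R' i - T)) +
    (-1 : ℝ) • fun σ p => log (v p (σ α))
  have a := ad_lf pl hD'
  have a1 := fun i => Ad.smul_mem (n i : ℝ) (add_mem (a (R' i - (T + Q)))
    (Ad.smul_mem (-1 : ℝ) (a (R' i - T))))
  have k : ∀ σ g, (∀ x, σ (io x) = io (g x)) → GG V s n R (iE T) (iE Q) (io α) σ = F g := by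
    intro σ g e
    ext p
    simp only [GG, F, Pi.add_apply, Finset.sum_apply, Pi.smul_apply, smul_eq_mul, lf, e, hv]
    rw [neg_one_mul, sub_eq_add_neg]
    congr 1
    refine Finset.sum_congr rfl fun i hi => ?_
    rw [← hR' i hi, ← map_add, ← map_sub, ← map_sub, sp_iE e, sp_iE e, iE,
      lam_map (io : Qb →+* ℂ) _ _ (hv p · |>.symm), lam_map (io : Qb →+* ℂ) _ _ (hv p · |>.symm)]
    ring
  have h3 := mn_two (F := F) (add_mem (sum_mem fun i _ => a1 i) (Ad.smul_mem _ (pl.ad_log α))) c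
    (t := t) fun g => by
      obtain ⟨σ, hσ⟩ := ex_ext g
      rw [← k σ g hσ, ← k (cj.trans σ) (g * c) fun x => by
        rw [RingEquiv.trans_apply, hc, hσ]; rfl, e]
  rw [mn_add (sum_mem fun i _ => a1 i) (Ad.smul_mem _ (pl.ad_log α)), mn_smul (pl.ad_log α), pl.prod,
    mn_sum _ fun i _ => a1 i] at h3
  have h4 : ∀ i ∈ s, mn ((n i : ℝ) • (lf v (R' i - (T + Q)) + (-1 : ℝ) • lf v (R' i - T))) =
      -β (n i • R' i) Q + n i * (β T Q + hh v (-Q)) := fun i _ => by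
    have := h1 (R' i - T) (-Q)
    rw [map_neg, map_sub, AddMonoidHom.sub_apply, show R' i - T + -Q = R' i - (T + Q) by abel] at this
    rw [mn_smul (add_mem (a _) (Ad.smul_mem _ (a _))), mn_add (a _) (Ad.smul_mem _ (a _)),
      mn_smul (a _), map_zsmul, AddMonoidHom.zsmul_apply, zsmul_eq_mul]
    simp only [hh] at this ⊢
    rw [show mn (lf v (R' i - (T + Q))) = _ from eq_add_of_sub_eq (eq_add_of_sub_eq this.symm)]
    ring
  rw [Finset.sum_congr rfl h4, Finset.sum_add_distrib, ← Finset.sum_mul, ← Int.cast_sum, h0,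
    Finset.sum_neg_distrib] at h3
  rw [hl', map_sum, AddMonoidHom.finset_sum_apply, ← h3]
  simp

end C

end Vale.Agent.P004Z.H
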