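import Vale.Agent.P004M.TE.Tate

/-! # P004Z, block G7: sums over all places, the product formula, Northcott's theorem -/

set_option autoImplicit false
set_option linter.all false

open Real MeasureTheory Polynomial
open scoped Classical

noncomputable section

namespace Vale.Agent.P004Z.H

open Vale.Agent.P004M.TE

theorem ex_av (G : Type) [Group G] [TopologicalSpace G] [IsTopologicalGroup G] [CompactSpace G] :
    ∃ M : (G → ℝ) → ℝ, (∀ f g, Continuous f → Continuous g → M (f + g) = M f + M g) ∧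
      (∀ (c : ℝ) f, M (c • f) = c * M f) ∧ (∀ c, M (fun _ => c) = c) ∧
      (∀ f g, Continuous f → Continuous g → f ≤ g → M f ≤ M g) ∧
      ∀ f c, M (fun x => f (x * c)) = M f := by
  letI := borel G
  haveI : BorelSpace G := ⟨rfl⟩
  let μ : Measure G := Measure.haarMeasure ⊤
  have h1 : μ Set.univ = 1 := by simpa using Measure.haarMeasure_self (K₀ := (⊤ : TopologicalSpace.PositiveCompacts G))
  haveI : IsProbabilityMeasure μ := ⟨h1⟩
  have k : ∀ f : G → ℝ, Continuous f → Integrable (fun x => f x⁻¹) μ := fun f hf =>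
    (hf.comp continuous_inv).integrable_of_hasCompactSupport (HasCompactSupport.of_compactSpace _)
  refine ⟨fun f => ∫ x, f x⁻¹ ∂μ, fun f g hf hg => integral_add (k f hf) (k g hg),
    fun c f => integral_const_mul c _, fun c => by simp,
    fun f g hf hg h => integral_mono (k f hf) (k g hg) fun x => h _, fun f c => ?_⟩
  simpa using integral_mul_left_eq_self (μ := μ) (fun x => f x⁻¹) c⁻¹

theorem gal : IsGalois ℚ Qb :=
  haveI : IsAlgClosure ℚ Qb := ⟨inferInstance, AlgebraicClosure.isAlgebraic ℚ⟩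
  IsAlgClosure.isGalois ℚ Qb

attribute [local instance] gal

/-- the invariant mean on the absolute Galois group -/
def av : (GQ → ℝ) → ℝ := (ex_av GQ).choose

/-- the sum over all places; `0` stands for the infinite place -/
def tt (f : ℕ → ℝ) : ℝ := f 0 + ∑ᶠ p : Nat.Primes, f p

/-- finite support -/
def Fs (f : ℕ → ℝ) : Prop := (Function.support fun p : Nat.Primes => f p).Finite

theorem Fs.add {f g : ℕ → ℝ} (h : Fs f) (h' : Fs g) : Fs (f + g) :=
  (Set.Finite.union h h').subset (Function.support_add _ _)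

theorem Fs.smul {f : ℕ → ℝ} (h : Fs f) (c : ℝ) : Fs (c • f) :=
  Set.Finite.subset h (Function.support_const_smul_subset c _)

theorem tt_add {f g : ℕ → ℝ} (h : Fs f) (h' : Fs g) : tt (f + g) = tt f + tt g := by
  simp only [tt, Pi.add_apply]
  rw [finsum_add_distrib h h']
  ring

theorem tt_smul {f : ℕ → ℝ} (h : Fs f) (c : ℝ) : tt (c • f) = c * tt f := by
  simp only [tt, Pi.smul_apply, smul_eq_mul]
  rw [← mul_finsum' _ _ h, mul_add]

theorem tt_mono {f g : ℕ → ℝ} (h : Fs f) (h' : Fs g) (h0 : f 0 ≤ g 0)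
    (h1 : ∀ p, p.Prime → f p ≤ g p) : tt f ≤ tt g :=
  add_le_add h0 (finsum_le_finsum' h h' fun p => h1 p p.2)

theorem tt_congr {f g : ℕ → ℝ} (h0 : f 0 = g 0) (h1 : ∀ p, p.Prime → f p = g p) : tt f = tt g := by
  rw [tt, tt, h0, finsum_congr fun p : Nat.Primes => h1 p p.2]

/-- families which can be summed and averaged -/
def Ad : Submodule ℝ (GQ → ℕ → ℝ) where
  carrier := {F | (∀ σ, Fs (F σ)) ∧ Continuous fun σ => tt (F σ)}
  add_mem' {F F'} h h' := ⟨fun σ => (h.1 σ).add (h'.1 σ),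
    (h.2.add h'.2).congr fun σ => (tt_add (h.1 σ) (h'.1 σ)).symm⟩
  zero_mem' := ⟨fun σ => by simp [Fs], continuous_const (y := tt 0)⟩
  smul_mem' c F h := ⟨fun σ => (h.1 σ).smul c,
    (h.2.const_mul c).congr fun σ => (tt_smul (h.1 σ) c).symm⟩

theorem mem_Ad {F : GQ → ℕ → ℝ} : F ∈ Ad ↔ (∀ σ, Fs (F σ)) ∧ Continuous fun σ => tt (F σ) := Iff.rfl

/-- the global sum -/
def mn (F : GQ → ℕ → ℝ) : ℝ := av fun σ => tt (F σ)

section
variable {F F' : GQ → ℕ → ℝ}

theorem mn_add (h : F ∈ Ad) (h' : F' ∈ Ad) : mn (F + F') = mn F + mn F' := by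
  rw [mem_Ad] at h h'
  rw [mn, mn, mn, av, ← (ex_av GQ).choose_spec.1 _ _ h.2 h'.2]
  exact congrArg _ (funext fun σ => tt_add (h.1 σ) (h'.1 σ))

theorem mn_smul (h : F ∈ Ad) (c : ℝ) : mn (c • F) = c * mn F := by
  rw [mn, mn, av, ← (ex_av GQ).choose_spec.2.1]
  exact congrArg _ (funext fun σ => tt_smul ((mem_Ad.1 h).1 σ) c)

theorem mn_const (f : ℕ → ℝ) : mn (fun _ => f) = tt f := (ex_av GQ).choose_spec.2.2.1 _

theorem mn_mono (h : F ∈ Ad) (h' : F' ∈ Ad) (h0 : ∀ σ, F σ 0 ≤ F' σ 0)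
    (h1 : ∀ σ p, p.Prime → F σ p ≤ F' σ p) : mn F ≤ mn F' :=
  (ex_av GQ).choose_spec.2.2.2.1 _ _ (mem_Ad.1 h).2 (mem_Ad.1 h').2 fun σ =>
    tt_mono ((mem_Ad.1 h).1 σ) ((mem_Ad.1 h').1 σ) (h0 σ) (h1 σ)

theorem mn_shift (F : GQ → ℕ → ℝ) (c : GQ) : mn (fun σ => F (σ * c)) = mn F :=
  (ex_av GQ).choose_spec.2.2.2.2 (fun σ => tt (F σ)) c

theorem mn_zero : mn 0 = 0 := by simpa using mn_smul (F := 0) (zero_mem _) 0

theorem mn_sum {ι : Type*} (s : Finset ι) {F : ι → GQ → ℕ → ℝ} (h : ∀ i ∈ s, F i ∈ Ad) :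
    mn (∑ i ∈ s, F i) = ∑ i ∈ s, mn (F i) := by
  induction s using Finset.induction_on with
  | empty => simpa using mn_zero
  | insert a s ha ih =>
    have h' := fun i hi => h i (Finset.mem_insert_of_mem hi)
    rw [Finset.sum_insert ha, Finset.sum_insert ha,
      mn_add (h a (Finset.mem_insert_self a s)) (sum_mem h'), ih h']

/-- the value of the mean from a pairing of the group -/
theorem mn_two (h : F ∈ Ad) (c : GQ) {t : ℝ} (e : ∀ σ, tt (F σ) + tt (F (σ * c)) = t) :
    2 * mn F = t := by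
  rw [mem_Ad] at h
  have h1 := (ex_av GQ).choose_spec.1 _ _ h.2 (h.2.comp (continuous_mul_const c))
  rw [show (fun σ => tt (F σ)) + (fun σ => tt (F σ)) ∘ (· * c) = fun _ => t from funext e,
    (ex_av GQ).choose_spec.2.2.1] at h1
  rw [h1, two_mul]
  exact congrArg _ (mn_shift F c).symm

theorem ad_of (h : ∀ σ, Fs (F σ)) (h' : ∀ σ, ∀ᶠ τ in nhds σ, F τ = F σ) : F ∈ Ad :=
  mem_Ad.2 ⟨h, ((IsLocallyConstant.iff_eventually_eq _).2 fun σ =>
    (h' σ).mono fun _ e => congrArg tt e).continuous⟩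

theorem ad_const {f : ℕ → ℝ} (h : Fs f) : (fun _ => f) ∈ Ad :=
  mem_Ad.2 ⟨fun _ => h, continuous_const⟩

end

/-- one absolute value for every place of `ℚ` -/
structure Pl (v : ℕ → AbsoluteValue Qb ℝ) : Prop where
  inf : ∀ n : ℕ, v 0 n = n
  na : ∀ p, p.Prime → IsNonarchimedean (v p)
  self : ∀ p, p.Prime → v p p = (p : ℝ)⁻¹

theorem ex_pl (w : AbsoluteValue Qb ℝ) (hw : ∀ n : ℕ, w n = n) : ∃ v, Pl v ∧ v 0 = w := by
  have k : ∀ p : ℕ, ∃ u : AbsoluteValue Qb ℝ, (p = 0 → u = w) ∧
      (p.Prime → IsNonarchimedean u ∧ u p = (p : ℝ)⁻¹) := fun p => by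
    by_cases hp : p.Prime
    · haveI := Fact.mk hp
      haveI : Algebra.IsAlgebraic ℚ Qb := AlgebraicClosure.isAlgebraic ℚ
      let e : Qb →ₐ[ℚ] PadicAlgCl p := IsAlgClosed.lift
      refine ⟨(NormedField.toAbsoluteValue _).comp (e : Qb →+* PadicAlgCl p).injective,
        fun h => absurd h hp.ne_zero, fun _ => ⟨fun a b => ?_, ?_⟩⟩
      · change ‖e (a + b)‖ ≤ max ‖e a‖ ‖e b‖
        rw [map_add]
        exact PadicAlgCl.isNonarchimedean p _ _
      · change ‖e p‖ = _
        rw [map_natCast, ← map_natCast (algebraMap ℚ_[p] (PadicAlgCl p)), norm_algebraMap',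
          Padic.norm_p]
    · exact ⟨w, fun _ => rfl, fun h => absurd h hp⟩
  choose v h1 h2 using k
  exact ⟨v, ⟨(h1 0 rfl).symm ▸ hw, fun p h => (h2 p h).1, fun p h => (h2 p h).2⟩, h1 0 rfl⟩

namespace Pl

variable {v : ℕ → AbsoluteValue Qb ℝ} (h : Pl v)
include h

theorem int_le {p : ℕ} (hp : p.Prime) (n : ℤ) : v p n ≤ 1 := (h.na p hp).apply_intCast_le_one

theorem cop {p : ℕ} (hp : p.Prime) {a b : ℤ} (e : IsCoprime a b) : 1 ≤ max (v p a) (v p b) := by
  obtain ⟨s, t, e⟩ := e
  have e1 := congrArg (fun n : ℤ => v p n) e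
  simp only [Int.cast_add, Int.cast_mul, Int.cast_one, map_one] at e1
  refine e1.symm.trans_le ((h.na p hp _ _).trans (max_le_max ?_ ?_)) <;> rw [map_mul] <;>
    exact mul_le_of_le_one_left ((v p).nonneg _) (h.int_le hp _)

theorem nat_eq {p n : ℕ} (hp : p.Prime) (hn : ¬ p ∣ n) : v p n = 1 := by
  have h1 := h.cop hp (Nat.isCoprime_iff_coprime.2 ((Nat.Prime.coprime_iff_not_dvd hp).2 hn))
  rw [Int.cast_natCast, Int.cast_natCast, h.self p hp] at h1
  exact le_antisymm (by simpa using h.int_le hp n) ((le_max_iff.1 h1).resolve_left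
    (not_le.2 (inv_lt_one_of_one_lt₀ (by exact_mod_cast hp.one_lt))))

theorem ev_le (x : Qb) : {p : Nat.Primes | ¬ v p x ≤ 1}.Finite := by
  obtain ⟨n, hn, hx⟩ := ((IsFractionRing.isAlgebraic_iff ℤ ℚ Qb).2
    ((AlgebraicClosure.isAlgebraic ℚ).isAlgebraic x)).exists_integral_multiple
  have f : {p : Nat.Primes | p.1 ∣ n.natAbs}.Finite :=
    Set.Finite.preimage Subtype.val_injective.injOn (s := {m | m ∣ n.natAbs})
      ((Set.finite_Iic _).subset fun m hm => Nat.le_of_dvd (Int.natAbs_pos.2 hn) hm)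
  refine f.subset fun p hp => by_contra fun hd => hp ?_
  have h1 : v p n = 1 := by
    have := h.nat_eq p.2 hd
    rcases Int.natAbs_eq n with e | e <;> rw [e] <;> simpa using this
  have h2 : v p (n • x) ≤ 1 := by
    by_contra h3
    rw [not_le] at h3
    obtain ⟨q, q1, q2⟩ := hx
    rw [eval₂_eq_sum_range, Finset.sum_range_succ, q1.coeff_natDegree, map_one, one_mul,
      add_eq_zero_iff_eq_neg] at q2
    have h4 : v p (∑ i ∈ Finset.range q.natDegree, algebraMap ℤ Qb (q.coeff i) * (n • x) ^ i) <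
        v p (n • x) ^ q.natDegree := by
      refine Finset.sum_induction _ (fun y => v p y < v p (n • x) ^ q.natDegree)
        (fun a b ha hb => (h.na p p.2 a b).trans_lt (max_lt ha hb)) (by rw [map_zero]; positivity)
        fun i hi => ?_
      rw [map_mul, map_pow]
      exact (mul_le_of_le_one_left (by positivity) (h.int_le p.2 _)).trans_lt
        (pow_lt_pow_right₀ h3 (Finset.mem_range.1 hi))
    rw [q2, (v p).map_neg, map_pow] at h4
    exact lt_irrefl _ h4
  rwa [zsmul_eq_mul, map_mul, h1, one_mul] at h2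

theorem fs_pos (x : Qb) : Fs fun p => log⁺ (v p x) := (h.ev_le x).subset fun p hp e =>
  hp ((posLog_eq_zero_iff _).2 (by rwa [abs_of_nonneg ((v p).nonneg _)]))

theorem fs_log (x : Qb) : Fs fun p => log (v p x) := by
  have := (h.fs_pos x).add ((h.fs_pos x⁻¹).smul (-1))
  convert this using 2 with p
  simp only [Pi.add_apply, Pi.smul_apply, map_inv₀, smul_eq_mul]
  linarith [posLog_sub_posLog_inv (x := v p x)]

theorem ad_pos (x : Qb) : (fun (σ : GQ) p => log⁺ (v p (σ x))) ∈ Ad :=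
  ad_of (fun _ => h.fs_pos _) fun σ => Filter.mem_of_superset ((open_fix σ x).mem_nhds rfl)
    fun τ (e : τ x = σ x) => by simp only [Set.mem_ofPred_eq, e]

theorem ad_log (x : Qb) : (fun (σ : GQ) p => log (v p (σ x))) ∈ Ad :=
  ad_of (fun _ => h.fs_log _) fun σ => Filter.mem_of_superset ((open_fix σ x).mem_nhds rfl)
    fun τ (e : τ x = σ x) => by simp only [Set.mem_ofPred_eq, e]

theorem tt_mul {x y : Qb} (hx : x ≠ 0) (hy : y ≠ 0) :
    tt (fun p => log (v p (x * y))) = tt (fun p => log (v p x)) + tt fun p => log (v p y) := by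
  rw [← tt_add (h.fs_log x) (h.fs_log y)]
  exact congrArg tt (funext fun p => by
    rw [map_mul, log_mul ((v p).pos hx).ne' ((v p).pos hy).ne', Pi.add_apply])

theorem tt_nat {n : ℕ} (hn : n ≠ 0) : tt (fun p => log (v p n)) = 0 := by
  induction n using Nat.recOnMul with
  | zero => exact absurd rfl hn
  | one => simp [tt]
  | prime l hl =>
    have := finsum_eq_single (fun p : Nat.Primes => log (v p l)) ⟨l, hl⟩ fun p hp => by
      rw [h.nat_eq p.2 fun e => hp (Subtype.ext ((Nat.prime_dvd_prime_iff_eq p.2 hl).1 e)), log_one]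
    rw [tt, h.inf, this]
    change _ + log (v l l) = 0
    rw [h.self l hl, log_inv, add_neg_cancel]
  | mul a b ha hb =>
    have a0 := left_ne_zero_of_mul hn
    have b0 := right_ne_zero_of_mul hn
    rw [Nat.cast_mul, h.tt_mul (Nat.cast_ne_zero.2 a0) (Nat.cast_ne_zero.2 b0), ha a0, hb b0,
      add_zero]

theorem tt_rat (q : ℚ) : tt (fun p => log (v p q)) = 0 := by
  by_cases hq : q = 0
  · simp [hq, tt]
  have h1 := h.tt_mul (x := q) (y := q.den) (by exact_mod_cast hq) (by exact_mod_cast q.den_nz)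
  have e : ∀ p, v p (q * q.den) = v p q.num.natAbs := fun p => by
    rw [show (q * q.den : Qb) = q.num by exact_mod_cast q.mul_den_eq_num]
    rcases Int.natAbs_eq q.num with e | e <;> rw [e] <;> simp
  simp only [e] at h1
  rw [h.tt_nat q.den_nz, h.tt_nat (by simpa using hq)] at h1
  linarith

/-- **the product formula** -/
theorem prod (x : Qb) : mn (fun σ p => log (v p (σ x))) = 0 := by
  by_cases hx : x = 0
  · simpa [hx, Pi.zero_def] using mn_zero
  have : Algebra.IsAlgebraic ℚ Qb := AlgebraicClosure.isAlgebraic ℚ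
  have ad : ∀ s : Finset Qb, (∀ y ∈ s, y ≠ 0) → mn (fun σ p => log (v p (σ (∏ y ∈ s, y)))) =
      ∑ y ∈ s, mn fun σ p => log (v p (σ y)) := fun s hs => by
    rw [← mn_sum _ fun y _ => h.ad_log y]
    refine congrArg mn (funext fun σ => funext fun p => ?_)
    rw [map_prod, map_prod, log_prod fun y hy => ((v p).pos (by simpa using hs y hy)).ne']
    simp only [Finset.sum_apply]
  have fin : (Set.range fun σ : GQ => σ x).Finite :=
    ((minpoly ℚ x).rootSet_finite Qb).subset (by
      rintro _ ⟨σ, rfl⟩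
      rw [mem_rootSet_of_ne (minpoly.ne_zero (Algebra.IsIntegral.isIntegral x)),
        aeval_algHom_apply, minpoly.aeval, map_zero])
  obtain ⟨q, hq⟩ : ∏ y ∈ fin.toFinset, y ∈ Set.range (algebraMap ℚ Qb) := by
    rw [InfiniteGalois.mem_range_algebraMap_iff_fixed]
    intro σ
    rw [map_prod]
    refine Finset.prod_bij' (fun y _ => σ y) (fun y _ => σ⁻¹ y) ?_ ?_ (by simp) (by simp) (by simp)
    · intro y hy
      obtain ⟨τ, rfl⟩ := fin.mem_toFinset.1 hy
      exact fin.mem_toFinset.2 ⟨σ * τ, rfl⟩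
    · intro y hy
      obtain ⟨τ, rfl⟩ := fin.mem_toFinset.1 hy
      exact fin.mem_toFinset.2 ⟨σ⁻¹ * τ, rfl⟩
  have h1 := ad fin.toFinset fun y hy => by
    obtain ⟨τ, rfl⟩ := fin.mem_toFinset.1 hy
    simpa using hx
  rw [← hq, Finset.sum_congr rfl (g := fun _ => mn fun σ p => log (v p (σ x))) fun y hy => by
    obtain ⟨τ, rfl⟩ := fin.mem_toFinset.1 hy
    exact mn_shift (fun σ p => log (v p (σ x))) τ] at h1
  simp only [eq_ratCast, map_ratCast, mn_const, h.tt_rat, Finset.sum_const] at h1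
  exact (smul_eq_zero.1 h1.symm).resolve_left (Finset.card_ne_zero.2 ⟨x, fin.mem_toFinset.2 ⟨1, rfl⟩⟩)

end Pl

/-- the height of an algebraic number -/
def hx (v : ℕ → AbsoluteValue Qb ℝ) (x : Qb) : ℝ := mn fun σ p => log⁺ (v p (σ x))

namespace Pl

variable {v : ℕ → AbsoluteValue Qb ℝ} (h : Pl v)
include h

theorem hx_nonneg (x : Qb) : 0 ≤ hx v x :=
  mn_zero.ge.trans (mn_mono (zero_mem _) (h.ad_pos x) (fun _ => posLog_nonneg) fun _ _ _ => posLog_nonneg)

theorem hx_step (x y z : Qb) : hx v (x - y * z) ≤ log 2 + hx v x + (hx v y + hx v z) := by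
  have f : Fs (Pi.single 0 (log 2)) := Set.finite_empty.subset fun p hp =>
    hp (Pi.single_eq_of_ne p.2.ne_zero _)
  have e : tt (Pi.single 0 (log 2)) = log 2 := by
    rw [tt, finsum_eq_zero_of_forall_eq_zero fun p : Nat.Primes => Pi.single_eq_of_ne p.2.ne_zero _]
    simp
  rw [← e, ← mn_const, hx, hx, hx, hx, ← mn_add (ad_const f) (h.ad_pos x),
    ← mn_add (h.ad_pos y) (h.ad_pos z),
    ← mn_add (add_mem (ad_const f) (h.ad_pos x)) (add_mem (h.ad_pos y) (h.ad_pos z))]
  refine mn_mono (h.ad_pos _) (add_mem (add_mem (ad_const f) (h.ad_pos x))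
    (add_mem (h.ad_pos y) (h.ad_pos z))) (fun σ => ?_) fun σ p hp => ?_
  · simp only [Pi.add_apply, Pi.single_eq_same, map_sub, map_mul]
    refine (posLog_le_posLog ((v 0).nonneg _) ((v 0).sub_le_add _ _)).trans (posLog_add.trans ?_)
    rw [map_mul]
    linarith [posLog_mul (x := v 0 (σ y)) (y := v 0 (σ z))]
  · simp only [Pi.add_apply, Pi.single_eq_of_ne hp.ne_zero, map_sub, map_mul]
    have h1 := posLog_mul (x := v p (σ y)) (y := v p (σ z))
    have h2 := posLog_nonneg (x := v p (σ x))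
    have h3 := posLog_nonneg (x := v p (σ y) * v p (σ z))
    rw [sub_eq_add_neg]
    refine (posLog_le_posLog ((v p).nonneg _) (h.na p hp _ _)).trans ?_
    rw [(v p).map_neg, map_mul]
    rcases max_choice (v p (σ x)) (v p (σ y) * v p (σ z)) with e | e <;> rw [e] <;> linarith

theorem fin_rat (C : ℝ) : {q : ℚ | hx v q ≤ C}.Finite := by
  refine Set.Finite.of_finite_image (f := fun q : ℚ => (q.num.natAbs, q.den, q.num.sign))
    (((Set.finite_Iic ⌈exp C * exp C⌉₊).prod ((Set.finite_Iic ⌈exp C⌉₊).prod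
      (Set.toFinite {0, 1, -1}))).subset ?_) fun q _ r _ e => ?_
  · rintro _ ⟨q, hq, rfl⟩
    simp only [Set.mem_ofPred_eq, hx, map_ratCast, mn_const] at hq
    have d0 : (0 : ℝ) < q.den := by exact_mod_cast q.den_pos
    have e1 : ∀ p, v p q.num = v p q * v p q.den := fun p => by
      rw [← map_mul, show (q * q.den : Qb) = q.num by exact_mod_cast q.mul_den_eq_num]
    have h1 : log q.den ≤ C := by
      have f : Fs (Pi.single 0 (log q.den)) := Set.finite_empty.subset fun p hp =>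
        hp (Pi.single_eq_of_ne p.2.ne_zero _)
      have e : tt (Pi.single 0 (log q.den)) = log q.den := by
        rw [tt, finsum_eq_zero_of_forall_eq_zero fun p : Nat.Primes =>
          Pi.single_eq_of_ne p.2.ne_zero _]
        simp
      have := tt_mono f ((h.fs_pos q).add (h.fs_log q.den)) (by
        simp only [Pi.single_eq_same, Pi.add_apply, h.inf]
        exact le_add_of_nonneg_left posLog_nonneg) fun p hp => by
        have a := h.cop hp (a := q.num) (b := q.den) (Int.isCoprime_iff_gcd_eq_one.2 q.reduced)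
        have b : 0 < v p q.den := (v p).pos (by exact_mod_cast q.den_nz)
        rw [Int.cast_natCast, e1, ← one_mul (v p q.den), ← mul_assoc, mul_one,
          ← max_mul_of_nonneg _ _ b.le] at a
        have c := log_nonneg a
        rw [log_mul (by positivity) b.ne', max_comm, ← posLog_eq_log_max_one ((v p).nonneg _)] at c
        simpa only [Pi.single_eq_of_ne hp.ne_zero, Pi.add_apply] using c
      rw [e, tt_add (h.fs_pos _) (h.fs_log _), h.tt_nat q.den_nz] at this
      linarith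
    have h2 : v 0 q ≤ exp C := le_exp_of_log_le (le_trans (le_max_right 0 _) (le_trans
      (le_add_of_nonneg_right (finsum_nonneg fun _ => posLog_nonneg)) hq))
    have h3 := le_exp_of_log_le h1
    refine ⟨?_, ?_, by rcases q.num.sign_trichotomy with e | e | e <;> simp [e]⟩
    · refine Nat.cast_le.1 (le_trans ?_ (Nat.le_ceil _))
      have : v 0 q.num = q.num.natAbs := by
        rw [← h.inf]
        rcases Int.natAbs_eq q.num with e | e <;> rw [e] <;> simp
      rw [← this, e1, h.inf]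
      exact mul_le_mul h2 h3 d0.le (exp_pos C).le
    · exact Nat.cast_le.1 (h3.trans (Nat.le_ceil _))
  · simp only [Prod.mk.injEq] at e
    exact Rat.ext (by rw [← q.num.sign_mul_natAbs, ← r.num.sign_mul_natAbs, e.1, e.2.2]) e.2.1

theorem hx_coeff (C : ℝ) (d : ℕ) : ∃ C', ∀ s : Multiset Qb, s.card ≤ d → (∀ y ∈ s, hx v y ≤ C) →
    ∀ n, hx v ((s.map fun y => X - Polynomial.C y).prod.coeff n) ≤ C' := by
  have z : hx v 0 = 0 := by simpa [hx, Pi.zero_def] using mn_zero
  induction d with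
  | zero =>
    refine ⟨0, fun s hs _ n => ?_⟩
    rw [Multiset.card_eq_zero.1 (Nat.le_zero.1 hs), Multiset.map_zero, Multiset.prod_zero, coeff_one]
    split_ifs
    · simpa [hx, Pi.zero_def] using mn_zero.le
    · exact z.le
  | succ d ih =>
    obtain ⟨C', hC⟩ := ih
    have c0 : 0 ≤ C' := (h.hx_nonneg _).trans (hC 0 (by simp) (by simp) 0)
    refine ⟨log 2 + C' + (|C| + C'), fun s hs h1 n => ?_⟩
    have l2 := log_nonneg (one_le_two (α := ℝ))
    induction s using Multiset.induction_on with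
    | empty => linarith [hC 0 (by simp) (by simp) n, abs_nonneg C]
    | cons y s _ =>
      have h2 := hC s (by simpa using hs) fun z hz => h1 z (Multiset.mem_cons_of_mem hz)
      have h3 := (h1 y (Multiset.mem_cons_self y s)).trans (le_abs_self C)
      rw [Multiset.map_cons, Multiset.prod_cons, sub_mul, coeff_sub, coeff_C_mul]
      refine (h.hx_step _ _ _).trans ?_
      rcases n with _ | n
      · rw [coeff_X_mul_zero, z]
        linarith [h2 0]
      · rw [coeff_X_mul]
        linarith [h2 n, h2 (n + 1)]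

/-- **Northcott** -/
theorem north (C : ℝ) (d : ℕ) : {x : Qb | (minpoly ℚ x).natDegree ≤ d ∧ hx v x ≤ C}.Finite := by
  obtain ⟨C', hC⟩ := h.hx_coeff C d
  have : Algebra.IsAlgebraic ℚ Qb := AlgebraicClosure.isAlgebraic ℚ
  have f : {q : ℚ[X] | q.natDegree ≤ d ∧ ∀ n, hx v (q.coeff n : ℚ) ≤ C'}.Finite := by
    refine Set.Finite.of_finite_image (f := fun q (i : Fin (d + 1)) => q.coeff i)
      ((Set.Finite.pi' fun _ => h.fin_rat C').subset ?_) fun q hq r hr e => ?_
    · rintro _ ⟨q, hq, rfl⟩ i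
      exact hq.2 i
    · ext n
      rcases le_or_gt n d with hn | hn
      · exact congrFun e ⟨n, by omega⟩
      · rw [coeff_eq_zero_of_natDegree_lt (hq.1.trans_lt hn),
          coeff_eq_zero_of_natDegree_lt (hr.1.trans_lt hn)]
  refine (f.biUnion fun q _ => q.rootSet_finite Qb).subset fun x hx' => ?_
  have i := Algebra.IsIntegral.isIntegral (R := ℚ) x
  refine Set.mem_biUnion (x := minpoly ℚ x) ⟨hx'.1, fun n => ?_⟩
    ((mem_rootSet_of_ne (minpoly.ne_zero i)).2 (minpoly.aeval ℚ x))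
  have m := (minpoly.monic i).map (algebraMap ℚ Qb)
  have := hC ((minpoly ℚ x).map (algebraMap ℚ Qb)).roots ((card_roots' _).trans
    (natDegree_map_le.trans hx'.1)) (fun y hy => by
      obtain ⟨σ, rfl⟩ := minpoly.exists_algEquiv_of_root' i.isAlgebraic (x := y) (by
        rw [← eval_map_algebraMap]; exact (mem_roots m.ne_zero).1 hy)
      exact (mn_shift (fun τ p => log⁺ (v p (τ x))) σ).trans_le hx'.2) n
  rwa [← (IsAlgClosed.splits _).eq_prod_roots_of_monic m, coeff_map, eq_ratCast] at this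

end Pl

end Vale.Agent.P004Z.H
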