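import Mathlib

/-! # P004Z, block G7: Tate's limit for the addition and subtraction map -/

set_option autoImplicit false
set_option linter.all false

open Real

noncomputable section

namespace Vale.Agent.P004Z.H

section tate
variable {X : Type*} {f : X → X} {h : X → ℝ} {C : ℝ}

/-- Tate's limit -/
def tate (f : X → X) (h : X → ℝ) (x : X) : ℝ :=
  h x + ∑' n : ℕ, (h (f (f^[n] x)) - 2 * h (f^[n] x)) / 2 / 2 ^ n

theorem tate_aux (hC : ∀ x, |h (f x) - 2 * h x| ≤ C) (x : X) (n : ℕ) :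
    ‖(h (f (f^[n] x)) - 2 * h (f^[n] x)) / 2 / 2 ^ n‖ ≤ C / 2 / 2 ^ n := by
  rw [norm_div, norm_div, norm_pow, norm_ofNat]
  gcongr
  exact hC _

theorem tate_sub (hC : ∀ x, |h (f x) - 2 * h x| ≤ C) (x : X) : |tate f h x - h x| ≤ C := by
  rw [tate, add_sub_cancel_left]
  exact tsum_of_norm_bounded (hasSum_geometric_two' C) (tate_aux hC x)

theorem tate_f (hC : ∀ x, |h (f x) - 2 * h x| ≤ C) (x : X) : tate f h (f x) = 2 * tate f h x := by
  have := (Summable.of_norm_bounded (summable_geometric_two' C) (tate_aux hC x)).tsum_eq_zero_add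
  rw [tate, tate, this, mul_add, mul_add, ← tsum_mul_left]
  simp only [Function.iterate_succ, Function.comp_apply, Function.iterate_zero, id, pow_succ]
  rw [show ∀ a b c d : ℝ, c = d → a + c = 2 * b + (2 * ((a - 2 * b) / 2 / 2 ^ 0) + d) from
    fun a b c d e => by rw [e]; ring]
  exact tsum_congr fun n => by ring

/-- a bounded function which is multiplied by `d ≥ 2` vanishes -/
theorem bdd_zero {S : Set X} {D : X → ℝ} {d : ℝ} (hd : 2 ≤ d) (hS : ∀ x ∈ S, f x ∈ S)
    (hD : ∀ x ∈ S, D (f x) = d * D x) (hC : ∀ x ∈ S, |D x| ≤ C) : ∀ x ∈ S, D x = 0 := by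
  have k : ∀ n : ℕ, ∀ x ∈ S, |D x| ≤ C / 2 ^ n := by
    intro n
    induction n with
    | zero => simpa using hC
    | succ n ih =>
      intro x hx
      have := ih _ (hS x hx)
      rw [hD x hx, abs_mul, abs_of_nonneg (by linarith : 0 ≤ d)] at this
      rw [pow_succ, ← div_div, le_div_iff₀ two_pos]
      nlinarith [abs_nonneg (D x)]
  intro x hx
  exact abs_nonpos_iff.1 (ge_of_tendsto' ((summable_geometric_two' (2 * C)).tendsto_atTop_zero.congr
    fun n => by ring) fun n => k n x hx)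

end tate

variable {L : Type*} [Field L] (v : AbsoluteValue L ℝ) (A B : L)

/-- the maximum norm -/
def nm (x : Fin 3 → L) : ℝ := max (v (x 0)) (max (v (x 1)) (v (x 2)))

/-- the addition and subtraction map -/
def FF (x : Fin 3 → L) : Fin 3 → L :=
  ![(x 0 - A * x 2) ^ 2 - 4 * B * x 1 * x 2, 2 * (x 0 + A * x 2) * x 1 + 4 * B * x 2 ^ 2,
    x 1 ^ 2 - 4 * x 0 * x 2]

variable {v A B}

theorem le_nm (x : Fin 3 → L) (i : Fin 3) : v (x i) ≤ nm v x := by
  fin_cases i <;> simp [nm]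

theorem ex_nm (x : Fin 3 → L) : ∃ i, nm v x = v (x i) := by
  rcases max_choice (v (x 0)) (max (v (x 1)) (v (x 2))) with h | h
  · exact ⟨0, h⟩
  · rcases max_choice (v (x 1)) (v (x 2)) with h' | h'
    · exact ⟨1, h.trans h'⟩
    · exact ⟨2, h.trans h'⟩

theorem nm_pos {x : Fin 3 → L} (h : x ≠ 0) : 0 < nm v x := by
  obtain ⟨i, hi⟩ := Function.ne_iff.1 h
  exact (v.pos hi).trans_le (le_nm x i)

theorem nm_smul (c : L) (x : Fin 3 → L) : nm v (c • x) = v c * nm v x := by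
  simp only [nm, Pi.smul_apply, smul_eq_mul, map_mul, mul_max_of_nonneg _ _ (v.nonneg c)]

theorem FF_smul (c : L) (x : Fin 3 → L) : FF A B (c • x) = c ^ 2 • FF A B x := by
  ext i
  fin_cases i <;> simp [FF] <;> ring

/-- the size of the constants -/
structure Sz (v : AbsoluteValue L ℝ) (A B : L) (κ : ℝ) : Prop where
  add : ∀ a b, v (a + b) ≤ κ * max (v a) (v b)
  hA : v A ≤ κ
  hB : v B ≤ κ
  hD : v (16 * (4 * A ^ 3 + 27 * B ^ 2))⁻¹ ≤ κ
  ne : 16 * (4 * A ^ 3 + 27 * B ^ 2) ≠ 0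

theorem Sz.one {κ : ℝ} (h : Sz v A B κ) : 1 ≤ κ := by simpa using h.add 1 0

theorem ex_sz (v : AbsoluteValue L ℝ) (hD : 16 * (4 * A ^ 3 + 27 * B ^ 2) ≠ 0) : ∃ κ, Sz v A B κ :=
  ⟨max (max 2 (v (16 * (4 * A ^ 3 + 27 * B ^ 2))⁻¹)) (max (v A) (v B)), fun a b => by
    have h1 := le_max_left (v a) (v b)
    have h2 := le_max_right (v a) (v b)
    refine (v.add_le a b).trans (le_trans (by linarith) (mul_le_mul_of_nonneg_right
      ((le_max_left _ _).trans (le_max_left _ _)) ((v.nonneg a).trans h1))),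
    by simp, by simp, by simp only [le_max_iff, le_refl, true_or, or_true], hD⟩

/-- functions which are bounded on the unit ball -/
def Rb {κ : ℝ} (h : Sz v A B κ) : Subring ((Fin 3 → L) → L) where
  carrier := {q | ∃ n : ℕ, ∀ x, nm v x ≤ 1 → v (q x) ≤ κ ^ n}
  mul_mem' := by
    rintro q q' ⟨n, h1⟩ ⟨m, h2⟩
    refine ⟨n + m, fun x hx => ?_⟩
    rw [Pi.mul_apply, map_mul, pow_add]
    exact mul_le_mul (h1 x hx) (h2 x hx) (v.nonneg _) ((v.nonneg _).trans (h1 x hx))
  one_mem' := ⟨0, fun x _ => by simp⟩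
  add_mem' := by
    rintro q q' ⟨n, h1⟩ ⟨m, h2⟩
    refine ⟨n + m + 1, fun x hx => (h.add _ _).trans ?_⟩
    rw [pow_succ']
    exact mul_le_mul_of_nonneg_left (max_le ((h1 x hx).trans (pow_le_pow_right₀ h.one (by omega)))
      ((h2 x hx).trans (pow_le_pow_right₀ h.one (by omega)))) (zero_le_one.trans h.one)
  zero_mem' := ⟨0, fun x _ => by simp⟩
  neg_mem' := by
    rintro q ⟨n, h1⟩
    exact ⟨n, fun x hx => by rw [Pi.neg_apply, v.map_neg]; exact h1 x hx⟩

theorem Sz.core {κ : ℝ} (h : Sz v A B κ) :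
    ∃ n : ℕ, ∀ x, nm v x = 1 → nm v (FF A B x) ≤ κ ^ n ∧ 1 ≤ κ ^ n * nm v (FF A B x) := by
  let c : ∀ a : L, v a ≤ κ → Rb h := fun a ha => ⟨fun _ => a, 1, fun _ _ => by rwa [pow_one]⟩
  let W : WeierstrassCurve (Rb h) := ⟨0, 0, 0, c A h.hA, c B h.hB⟩
  let y : Fin 3 → Rb h := fun i => ⟨fun x => x i, 0, fun x hx => (le_nm x i).trans (by simpa)⟩
  let ev : (Fin 3 → L) → (Rb h →+* L) := fun x => (Pi.evalRingHom (fun _ => L) x).comp (Rb h).subtype
  have inj : ∀ a b : Rb h, (∀ x, ev x a = ev x b) → a = b := fun a b e => Subtype.ext (funext e)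
  have : W.IsElliptic := ⟨IsUnit.of_mul_eq_one (-c _ h.hD) (inj _ _ fun x => by
    have := h.ne
    simp only [W, WeierstrassCurve.Δ, WeierstrassCurve.b₂, WeierstrassCurve.b₄,
      WeierstrassCurve.b₆, WeierstrassCurve.b₈, map_mul, map_add, map_sub, map_neg, map_pow,
      map_zero, map_one, map_ofNat]
    change (_ : L) * -(16 * (4 * A ^ 3 + 27 * B ^ 2))⁻¹ = 1
    rw [mul_neg, ← neg_mul, mul_inv_eq_one₀ this, show ev x (c A h.hA) = A from rfl,
      show ev x (c B h.hB) = B from rfl]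
    ring)⟩
  have e : ∀ x j, ev x ((W.addSubMap j).eval y) = FF A B x j := fun x j => by
    have a1 : ev x (c A h.hA) = A := rfl
    have a2 : ev x (c B h.hB) = B := rfl
    have a3 : ∀ i, ev x (y i) = x i := fun _ => rfl
    fin_cases j <;>
      simp [WeierstrassCurve.addSubMap, FF, W, WeierstrassCurve.b₂, WeierstrassCurve.b₄,
        WeierstrassCurve.b₆, WeierstrassCurve.b₈, a1, a2, a3, map_ofNat] <;> ring
  choose m hm using fun j => ((W.addSubMap j).eval y).2
  choose k hk using fun ij => ((MvPolynomial.C (↑W.Δ'⁻¹ : Rb h) * W.addSubMapCoeff ij).eval y).2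
  have h1 := h.one
  refine ⟨∑ j, m j + ∑ ij, k ij + 2, fun x hx => ⟨?_, ?_⟩⟩
  · obtain ⟨j, hj⟩ := ex_nm (v := v) (FF A B x)
    rw [hj, ← e]
    have := Finset.single_le_sum (f := m) (fun _ _ => Nat.zero_le _) (Finset.mem_univ j)
    exact (hm j x hx.le).trans (pow_le_pow_right₀ h1 (by omega))
  · obtain ⟨i, hi⟩ := ex_nm (v := v) x
    have e1 := congrArg (fun z => v (ev x z)) (W.addSubMapCoeff_condition y i)
    simp only [Fin.sum_univ_three, map_add, map_mul (ev x), e, map_pow] at e1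
    rw [show ev x (y i) = x i from rfl, ← hi, hx, one_pow] at e1
    have b : ∀ j, v (ev x ((MvPolynomial.C (↑W.Δ'⁻¹ : Rb h) * W.addSubMapCoeff (i, j)).eval y) *
        FF A B x j) ≤ κ ^ (∑ j, m j + ∑ ij, k ij) * nm v (FF A B x) := fun j => by
      rw [map_mul]
      have := Finset.single_le_sum (f := k) (fun _ _ => Nat.zero_le _) (Finset.mem_univ (i, j))
      exact mul_le_mul ((hk _ x hx.le).trans (pow_le_pow_right₀ h1 (by omega))) (le_nm _ j)
        (v.nonneg _) (by positivity)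
    have p := (v.nonneg _).trans (b 0)
    refine e1.symm.trans_le ((h.add _ _).trans ?_)
    rw [pow_succ', pow_succ', mul_assoc, mul_assoc]
    refine mul_le_mul_of_nonneg_left (max_le ((h.add _ _).trans ?_) ((b 2).trans ?_)) (by linarith)
    · exact mul_le_mul_of_nonneg_left (max_le (b 0) (b 1)) (by linarith)
    · exact le_mul_of_one_le_left p h1

theorem Sz.bd {κ : ℝ} (h : Sz v A B κ) : ∃ n : ℕ, ∀ x, (x ≠ 0 → FF A B x ≠ 0) ∧
    |log (nm v (FF A B x)) - 2 * log (nm v x)| ≤ n * log κ := by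
  obtain ⟨n, hn⟩ := h.core
  have h1 := h.one
  refine ⟨n, fun x => ?_⟩
  by_cases hx : x = 0
  · have : FF A B 0 = 0 := by simpa using FF_smul (A := A) (B := B) 0 0
    simp only [hx, this, nm, ne_eq, not_true, false_imp_iff, Pi.zero_apply, map_zero, max_self,
      log_zero, mul_zero, sub_zero, abs_zero, true_and]
    exact mul_nonneg n.cast_nonneg (log_nonneg h1)
  obtain ⟨i, hi⟩ := ex_nm (v := v) x
  have p := nm_pos (v := v) hx
  have c0 : x i ≠ 0 := v.pos_iff.1 (hi ▸ p)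
  obtain ⟨a, b⟩ := hn ((x i)⁻¹ • x) (by rw [nm_smul, map_inv₀, ← hi, inv_mul_cancel₀ p.ne'])
  rw [FF_smul, nm_smul, map_pow, map_inv₀, ← hi] at a b
  have q : 0 < nm v (FF A B x) := lt_of_not_ge fun e => by
    have := mul_nonpos_of_nonneg_of_nonpos (by positivity : 0 ≤ κ ^ n)
      (mul_nonpos_of_nonneg_of_nonpos (sq_nonneg (nm v x)⁻¹) e)
    linarith
  refine ⟨fun _ e => by simp [e, nm] at q, ?_⟩
  have a' := log_le_log (by positivity) a
  have b' := log_nonneg b
  rw [log_mul (by positivity) (by positivity)] at b'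
  rw [log_mul (by positivity) q.ne', log_pow, log_pow, log_inv] at a' b'
  push_cast at a' b'
  exact abs_le.2 ⟨by linarith, by linarith⟩

variable (v A B) in
/-- the homogeneous local height on the symmetric square -/
def La : (Fin 3 → L) → ℝ := tate (FF A B) fun x => log (nm v x)

section
variable (hD : 16 * (4 * A ^ 3 + 27 * B ^ 2) ≠ 0)
include hD

theorem FF_ne {x : Fin 3 → L} (hx : x ≠ 0) : FF A B x ≠ 0 := by
  classical
  obtain ⟨κ, h⟩ := ex_sz (AbsoluteValue.trivial (R := L) (S := ℝ)) hD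
  obtain ⟨n, hn⟩ := h.bd
  exact (hn x).1 hx

theorem La_FF (x : Fin 3 → L) : La v A B (FF A B x) = 2 * La v A B x := by
  obtain ⟨κ, h⟩ := ex_sz v hD
  obtain ⟨n, hn⟩ := h.bd
  exact tate_f (fun x => (hn x).2) x

variable (v) in
theorem La_bd : ∃ C, ∀ x, |La v A B x - log (nm v x)| ≤ C := by
  obtain ⟨κ, h⟩ := ex_sz v hD
  obtain ⟨n, hn⟩ := h.bd
  exact ⟨_, tate_sub fun x => (hn x).2⟩

theorem La_smul {c : L} (hc : c ≠ 0) {x : Fin 3 → L} (hx : x ≠ 0) :
    La v A B (c • x) = log (v c) + La v A B x := by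
  obtain ⟨C, hC⟩ := La_bd v hD
  have := bdd_zero (f := fun p : L × (Fin 3 → L) => (p.1 ^ 2, FF A B p.2)) (C := C + C)
    (S := {p | p.1 ≠ 0 ∧ p.2 ≠ 0})
    (D := fun p => La v A B (p.1 • p.2) - (log (v p.1) + La v A B p.2)) le_rfl
    (fun p hp => ⟨pow_ne_zero _ hp.1, FF_ne hD hp.2⟩)
    (fun p _ => by
      simp only [← FF_smul, La_FF hD, map_pow, log_pow]
      push_cast
      ring)
    (fun p hp => by
      have h1 := abs_le.1 (hC (p.1 • p.2))
      have h2 := abs_le.1 (hC p.2)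
      rw [nm_smul, log_mul (v.pos hp.1).ne' (nm_pos hp.2).ne'] at h1
      exact abs_le.2 ⟨by linarith [h1.1, h2.2], by linarith [h1.2, h2.1]⟩) (c, x) ⟨hc, hx⟩
  exact sub_eq_zero.1 this

end

theorem La_good (h : Sz v A B 1) (x : Fin 3 → L) : La v A B x = log (nm v x) := by
  obtain ⟨n, hn⟩ := h.bd
  have := tate_sub (h := fun x => log (nm v x)) (fun x => (hn x).2) x
  rw [log_one, mul_zero] at this
  exact sub_eq_zero.1 (abs_nonpos_iff.1 this)

theorem La_map {L' : Type*} [Field L'] {w : AbsoluteValue L' ℝ} (f : L →+* L')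
    (hf : ∀ a, w (f a) = v a) (x : Fin 3 → L) : La w (f A) (f B) (f ∘ x) = La v A B x := by
  have h1 : ∀ x : Fin 3 → L, nm w (f ∘ x) = nm v x := fun x => by simp only [nm, Function.comp, hf]
  have h2 : ∀ x : Fin 3 → L, FF (f A) (f B) (f ∘ x) = f ∘ FF A B x := fun x => by
    ext i
    fin_cases i <;> simp [FF, map_ofNat]
  have h3 : ∀ n, (FF (f A) (f B))^[n] (f ∘ x) = f ∘ (FF A B)^[n] x := fun n =>
    (Function.Semiconj.iterate_right (f := fun x : Fin 3 → L => f ∘ x) (fun x => (h2 x).symm) n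
      x).symm
  simp only [La, tate, h3, h2, h1]

/-- the symmetric product of two pairs -/
def st (x z x' z' : L) : Fin 3 → L := ![x * x', x * z' + z * x', z * z']

theorem st_le (x z x' z' : L) :
    nm v (st x z x' z') ≤ 2 * (max (v x) (v z) * max (v x') (v z')) ∧
      max (v x) (v z) * max (v x') (v z') ≤ 2 * nm v (st x z x' z') := by
  have a0 := le_nm (v := v) (st x z x' z') 0
  have a1 := le_nm (v := v) (st x z x' z') 1
  have a2 := le_nm (v := v) (st x z x' z') 2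
  have b1 := v.add_le (x * z') (z * x')
  have b2 := v.add_le (x * z' + z * x') (-(z * x'))
  have b3 := v.add_le (x * z' + z * x') (-(x * z'))
  rw [add_neg_cancel_right] at b2
  rw [add_neg_cancel_comm] at b3
  simp only [st, Matrix.cons_val_zero, Matrix.cons_val_one, Matrix.cons_val, map_mul,
    v.map_neg] at a0 a1 a2 b1 b2 b3
  have k : ∀ {a a' b b' : ℝ}, 0 ≤ a' → 0 ≤ b → a ≤ b → a' ≤ b' → a * a' ≤ b * b' :=
    fun h1 h2 h3 h4 => mul_le_mul h3 h4 h1 h2
  have p1 := v.nonneg x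
  have p2 := v.nonneg z
  have p3 := v.nonneg x'
  have p4 := v.nonneg z'
  constructor
  · have m := p1.trans (le_max_left (v x) (v z))
    have c1 := k p3 m (le_max_left (v x) (v z)) (le_max_left (v x') (v z'))
    have c2 := k p4 m (le_max_left (v x) (v z)) (le_max_right (v x') (v z'))
    have c3 := k p3 m (le_max_right (v x) (v z)) (le_max_left (v x') (v z'))
    have c4 := k p4 m (le_max_right (v x) (v z)) (le_max_right (v x') (v z'))
    have := mul_nonneg p1 p3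
    simp only [nm, st, Matrix.cons_val_zero, Matrix.cons_val_one, Matrix.cons_val, map_mul]
    exact max_le (by linarith) (max_le (by linarith) (by linarith))
  · have := mul_nonneg p1 p3
    have := mul_nonneg p2 p4
    rcases le_total (v x) (v z) with h | h <;> rcases le_total (v x') (v z') with h' | h'
    · rw [max_eq_right h, max_eq_right h', st]
      linarith
    · rw [max_eq_right h, max_eq_left h', st]
      linarith [k p4 p2 h le_rfl]
    · rw [max_eq_left h, max_eq_right h', st]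
      linarith [k p3 p1 h le_rfl]
    · rw [max_eq_left h, max_eq_left h', st]
      linarith

theorem nm_st1 (x z : L) : nm v (st x z 1 0) = max (v x) (v z) := by
  simp [nm, st]

theorem st_ne {x z x' z' : L} (h : x ≠ 0 ∨ z ≠ 0) (h' : x' ≠ 0 ∨ z' ≠ 0) : st x z x' z' ≠ 0 := by
  intro e
  have a0 := congrFun e 0
  have a1 := congrFun e 1
  have a2 := congrFun e 2
  simp only [st, Matrix.cons_val_zero, Matrix.cons_val_one, Matrix.cons_val, Pi.zero_apply,
    mul_eq_zero] at a0 a1 a2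
  grind

theorem La_st (hD : 16 * (4 * A ^ 3 + 27 * B ^ 2) ≠ 0) {x z x' z' : L} (h : x ≠ 0 ∨ z ≠ 0)
    (h' : x' ≠ 0 ∨ z' ≠ 0) :
    La v A B (st x z x' z') = La v A B (st x z 1 0) + La v A B (st x' z' 1 0) := by
  obtain ⟨C, hC⟩ := La_bd v hD
  let δ : L × L → L × L := fun p => ((p.1 ^ 2 - A * p.2 ^ 2) ^ 2 - 8 * B * p.1 * p.2 ^ 3,
    4 * p.2 * (p.1 ^ 3 + A * p.1 * p.2 ^ 2 + B * p.2 ^ 3))
  have e : ∀ p q : L × L, st (δ p).1 (δ p).2 (δ q).1 (δ q).2 =
      FF A B (FF A B (st p.1 p.2 q.1 q.2)) := fun p q => by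
    ext i
    fin_cases i <;> simp [FF, st, δ] <;> ring
  have e1 : ∀ p : L × L, st (δ p).1 (δ p).2 1 0 = FF A B (FF A B (st p.1 p.2 1 0)) := fun p => by
    simpa [δ] using e p (1, 0)
  have n : ∀ p : L × L, p.1 ≠ 0 ∨ p.2 ≠ 0 → (δ p).1 ≠ 0 ∨ (δ p).2 ≠ 0 := fun p hp => by
    by_contra e2
    rw [not_or, not_not, not_not] at e2
    refine FF_ne hD (FF_ne hD (st_ne hp (Or.inl one_ne_zero))) ((e1 p).symm.trans ?_)
    rw [e2.1, e2.2]
    ext i
    fin_cases i <;> simp [st]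
  have := bdd_zero (f := fun p : (L × L) × L × L => (δ p.1, δ p.2)) (C := 3 * C + log 2) (d := 4)
    (S := {p | (p.1.1 ≠ 0 ∨ p.1.2 ≠ 0) ∧ (p.2.1 ≠ 0 ∨ p.2.2 ≠ 0)})
    (D := fun p => La v A B (st p.1.1 p.1.2 p.2.1 p.2.2) -
      (La v A B (st p.1.1 p.1.2 1 0) + La v A B (st p.2.1 p.2.2 1 0))) (by norm_num)
    (fun p hp => ⟨n _ hp.1, n _ hp.2⟩)
    (fun p _ => by
      simp only [e, e1, La_FF hD]
      ring)
    (fun p hp => by
      have h1 := abs_le.1 (hC (st p.1.1 p.1.2 p.2.1 p.2.2))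
      have h2 := abs_le.1 (hC (st p.1.1 p.1.2 1 0))
      have h3 := abs_le.1 (hC (st p.2.1 p.2.2 1 0))
      have q1 := nm_pos (v := v) (st_ne hp.1 hp.2)
      have q2 := nm_pos (v := v) (st_ne hp.1 (Or.inl one_ne_zero : (1 : L) ≠ 0 ∨ (0 : L) ≠ 0))
      have q3 := nm_pos (v := v) (st_ne hp.2 (Or.inl one_ne_zero : (1 : L) ≠ 0 ∨ (0 : L) ≠ 0))
      rw [nm_st1] at h2 h3 q2 q3
      obtain ⟨a, b⟩ := st_le (v := v) p.1.1 p.1.2 p.2.1 p.2.2
      have a' := log_le_log q1 a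
      have b' := log_le_log (mul_pos q2 q3) b
      rw [log_mul two_ne_zero (mul_pos q2 q3).ne', log_mul q2.ne' q3.ne'] at a'
      rw [log_mul two_ne_zero q1.ne', log_mul q2.ne' q3.ne'] at b'
      exact abs_le.2 ⟨by linarith [h1.1, h2.2, h3.2], by linarith [h1.2, h2.1, h3.1]⟩)
    ((x, z), x', z') ⟨h, h'⟩
  exact sub_eq_zero.1 this

end Vale.Agent.P004Z.H
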